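import Vale.Agent.P111.MathlibUsed

/-! Definitions used in the statements of the P111 hand-ins. -/

namespace Vale.Agent.P111

/-- The average of a (vector valued) function on a finite type. -/
noncomputable def avg {Ω E : Type*} [Fintype Ω] [AddCommGroup E] [Module ℝ E] (f : Ω → E) : E :=
  (Fintype.card Ω : ℝ)⁻¹ • ∑ ω, f ω

/-- A sign, as a real number. -/
def sg (u : ℤˣ) : ℝ := ((u : ℤ) : ℝ)

/-- `C_q(Y) < ∞`, for a given `q` with `2 ≤ q < ∞`. -/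
def HasCotype (q : ℝ) (Y : Type*) [NormedAddCommGroup Y] [NormedSpace ℝ Y] : Prop :=
  2 ≤ q ∧ ∃ C : ℝ, ∀ (n : ℕ) (y : Fin n → Y),
    (∑ i, ‖y i‖ ^ q) ^ (1 / q) ≤
      C * (avg fun ε : Fin n → ℤˣ => ‖∑ i, sg (ε i) • y i‖ ^ 2) ^ (1 / 2 : ℝ)

/-- The Rademacher projection on functions on the discrete cube. -/
noncomputable def rad {X : Type*} [NormedAddCommGroup X] [NormedSpace ℝ X] {n : ℕ}
    (f : (Fin n → ℤˣ) → X) (ε : Fin n → ℤˣ) : X :=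
  ∑ i, sg (ε i) • avg fun η : Fin n → ℤˣ => sg (η i) • f η

/-- `K(X) < ∞`. -/
def IsKConvex (X : Type*) [NormedAddCommGroup X] [NormedSpace ℝ X] : Prop :=
  ∃ K : ℝ, ∀ (n : ℕ) (f : (Fin n → ℤˣ) → X),
    (avg fun ε => ‖rad f ε‖ ^ 2) ^ (1 / 2 : ℝ) ≤ K * (avg fun ε => ‖f ε‖ ^ 2) ^ (1 / 2 : ℝ)

/-- The bounded approximation property. -/
def HasBAP (X : Type*) [NormedAddCommGroup X] [NormedSpace ℝ X] : Prop :=
  ∃ lam : ℝ, ∀ M : Set X, IsCompact M → ∀ δ : ℝ, 0 < δ →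
    ∃ S : X →L[ℝ] X, FiniteDimensional ℝ (LinearMap.range (S : X →ₗ[ℝ] X)) ∧ ‖S‖ ≤ lam ∧
      ∀ x ∈ M, ‖S x - x‖ < δ

/-- Pisier's property (α). -/
def HasPropertyAlpha (X : Type*) [NormedAddCommGroup X] [NormedSpace ℝ X] : Prop :=
  ∃ A : ℝ, ∀ (m n : ℕ) (a : Fin m → Fin n → ℝ) (x : Fin m → Fin n → X), (∀ i j, |a i j| ≤ 1) →
    (avg fun ε : Fin m → ℤˣ => avg fun ε' : Fin n → ℤˣ =>
        ‖∑ i, ∑ j, (a i j * sg (ε i) * sg (ε' j)) • x i j‖ ^ 2) ≤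
      A ^ 2 * avg fun ε : Fin m → ℤˣ => avg fun ε' : Fin n → ℤˣ =>
        ‖∑ i, ∑ j, (sg (ε i) * sg (ε' j)) • x i j‖ ^ 2

/-- The one-sided form of property (α), with an exponent `s`: products of independent signs are
dominated by independent signs, up to the factor `A * n ^ s` for `m × n` arrays. -/
def HasUpperAlpha (s : ℝ) (X : Type*) [NormedAddCommGroup X] [NormedSpace ℝ X] : Prop :=
  ∃ A : ℝ, ∀ (m n : ℕ) (x : Fin m → Fin n → X),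
    (avg fun ε : Fin m → ℤˣ => avg fun ε' : Fin n → ℤˣ =>
        ‖∑ i, ∑ j, (sg (ε i) * sg (ε' j)) • x i j‖ ^ 2) ≤
      (A * (n : ℝ) ^ s) ^ 2 * avg fun θ : Fin m → Fin n → ℤˣ =>
        ‖∑ i, ∑ j, sg (θ i j) • x i j‖ ^ 2

end Vale.Agent.P111
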