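import Mathlib.Algebra.Order.Archimedean.Real.Hom
import Mathlib.Algebra.Order.Chebyshev
import Mathlib.Algebra.Order.Field.GeomSum
import Mathlib.MeasureTheory.Integral.Gamma
import Mathlib.Probability.Distributions.Gaussian.Multivariate
import Mathlib.RingTheory.Flat.TorsionFree
import Mathlib.RingTheory.SimpleRing.Principal
import Mathlib.Tactic

/-! The part of Mathlib that the development of this folder uses. -/
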